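import Vale.Agent.P141.H886.NumOf
import Vale.Agent.P141.H329.WinS
import Vale.Agent.P141.H74.CutBC
import Vale.Agent.P141.H736.FixBD
import Vale.Agent.P141.H652.NumR
import Vale.Agent.P141.H652.NumQ
import Vale.Agent.P141.H302.BornU
import Vale.Agent.P141.H548.LagU
import Vale.Agent.P141.H989.CrB3

/-!
# P141, line (A), TI: the pair `(Bg, Cg)` at one `x0`, class data

`nE`, `nB` : the numbers of the two slots; `sumE`, `sumB` : their sums over `x0`; `fix_pt` : the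
inequality at one `x0`; `lBCg` : the leaf.
-/

set_option linter.unusedSectionVars false

namespace Vale.Agent.P141.H322

open Finset Matrix
open Vale.Agent.P075 (Ix)
open Vale.Agent.P141.PL (Pt iv ix cx mem_iv)
open Vale.Agent.P141.PL.H315 (Tri)
open Vale.Agent.P141.H48 (US ES BSl)
open Vale.Agent.P141.H305 (ClsM kapM)
open Vale.Agent.P141.PL.H103 Vale.Agent.P141.H103
open Vale.Agent.P141.H652 (Th ah eb PbS dB payS wt_Th)
open Vale.Agent.P141.H677 (rt KT cP tr_T)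
open Vale.Agent.P141.H401 (FibU FibP cb)
open Vale.Agent.P141.H408
open Vale.Agent.P141.H808 (thS cS)
open Vale.Agent.P141.H302 (bN tS Pr pr_not pr_ch)
open Vale.Agent.P141.H548 (vN oN chg kinds)
open Vale.Agent.P141.H419.PairB (gnV)
open Vale.Agent.P141.H419.WFamR
open Vale.Agent.P141.H912 (wS)
open Vale.Agent.P141.H989.CrB (fCRB)
open Vale.Agent.P141.H874 Vale.Agent.P141.H457
open Vale.Agent.P141.H886

noncomputable section

open scoped Classical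

set_option linter.unusedVariables false

/-- the number of the second slot -/
def nE : NumF := fun ι _ _ p n ez F1 F2 F3 o K x s r U g u v Q1 Q2 Q3 x0 =>
  (∑ l ∈ range (K + 1), (3 / 4 : ℝ) ^ l * vN 0 l ι p n ez F1 F2 F3 o K x s r U g u v Q1 Q2 Q3 x0) +
  vN 1 0 ι p n ez F1 F2 F3 o K x s r U g u v Q1 Q2 Q3 x0 +
  oN 0 ι p n ez F1 F2 F3 o K x s r U g u v Q1 Q2 Q3 x0 +
  (∑ l ∈ range (K + 1), (3 / 4 : ℝ) ^ l *
    bN (l + 1) ι p n ez F1 F2 F3 o K x s r U g u v Q1 Q2 Q3 x0) +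
  bN 0 ι p n ez F1 F2 F3 o K x s r U g u v Q1 Q2 Q3 x0 +
  fCRB H989.CrB.mB ι p n ez F1 F2 F3 o K x s r U g u v Q1 Q2 Q3 x0

/-- the number of the first slot -/
def nB : NumF := fun ι _ _ p n ez F1 F2 F3 o K x s r U g u v Q1 Q2 Q3 x0 =>
  dB p s r U K x u F3 Q3 x0 +
    payS (beI p r) (p.lam s r) o K (cx K x) u (fun k => H652.bS p s r U K u F3 Q3 x0 k) x0

theorem sumL_one {f : ℕ → NumF} (H : SumL 1 f) (l : ℕ) : SumU 1 (f l) := by
  unfold SumL PairU at H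
  unfold SumU PairU
  refine PairQ.imp H ?_
  intro ι _ _ p n ez F1 F2 F3 o K x s r U g u v Q1 Q2 Q3 X h f1 f2
  exact h f1 f2 l

theorem sumE : SumU 1 nE := by
  have h1 := H548.sumU_v (Nat.zero_le 1)
  have h2 := sumL_one (H548.sumL_v (j := 1) le_rfl) 0
  have h3 := sumL_one H548.sumL_o 0
  have h := ((((h1.add h2).add h3).add H302.sumU_b1).add H302.sumU_b0).add H989.CrB.sumU_mB
  exact h

theorem sumB : SumU (-1) nB := H652.EBU

section pt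

variable {ι : Type} [Fintype ι] [DecidableEq ι] {p : H401.Num} {s r ez : ℝ} {o : ℤ} {K : ℕ}
  {x : Pt} {U : Tri} {u v : ℤ → ℤ → ι → ℝ} {F2 : ℕ → Pt → ℝ} {x0 : ℤ}

theorem be_pos (ht : 0 < p.t) (hr : 1 ≤ r) : 0 < beI p r :=
  Real.rpow_pos_of_pos (div_pos ht (by linarith)) _

theorem kinds_nonneg (ht : 0 < p.t) (hs : 0 < s) (hr : 1 ≤ r) (a : ℕ) (x1 z : ℤ) (w : ι → ℝ) :
    0 ≤ kinds p s r o K x u x0 a x1 z w := by
  have h1 := H548.zm_nonneg ht hs hr o K x u x0 a x1 z w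
  have h2 := H548.ze_nonneg ht hs hr o K x u x0 a x1 z w
  have h3 := H548.zd_nonneg ht hs hr o K x u x0 a x1 z w
  have h4 := H548.zq_nonneg ht hs hr o K x u x0 a x1 z w
  unfold H548.kinds
  linarith

theorem vN_nonneg (ht : 0 < p.t) (hs : 0 < s) (hr : 1 ≤ r) (j q n : ℕ) (F1 F3 : ℕ → Pt → ℝ)
    (g : ℤ → ℤ → ℝ) (Q1 Q2 Q3 : ℕ → Pt → Prop) :
    0 ≤ vN j q ι p n ez F1 F2 F3 o K x s r U g u v Q1 Q2 Q3 x0 := by
  unfold H548.vN
  exact sum_nonneg fun k _ => sum_nonneg fun x1 _ => sum_nonneg fun z _ =>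
    add_nonneg (H548.chg_nonneg ht hs hr _ _ _ _ _ _ _ _ _) (kinds_nonneg ht hs hr _ _ _ _)

theorem oN_nonneg (ht : 0 < p.t) (hs : 0 < s) (hr : 1 ≤ r) (q n : ℕ) (F1 F3 : ℕ → Pt → ℝ)
    (g : ℤ → ℤ → ℝ) (Q1 Q2 Q3 : ℕ → Pt → Prop) :
    0 ≤ oN q ι p n ez F1 F2 F3 o K x s r U g u v Q1 Q2 Q3 x0 := by
  unfold H548.oN
  exact sum_nonneg fun x1 _ => sum_nonneg fun z _ => H302.eT_nn ht hs hr _ _ _ _

theorem bN_nonneg (ht : 0 < p.t) (hs : 0 < s) (hr : 1 ≤ r) (q n : ℕ) (F1 F3 : ℕ → Pt → ℝ)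
    (g : ℤ → ℤ → ℝ) (Q1 Q2 Q3 : ℕ → Pt → Prop) :
    0 ≤ bN q ι p n ez F1 F2 F3 o K x s r U g u v Q1 Q2 Q3 x0 := by
  unfold H302.bN
  refine sum_nonneg fun k _ => sum_nonneg fun x1 _ => sum_nonneg fun z _ => ?_
  split_ifs
  · exact H302.eT_nn ht hs hr _ _ _ _
  · exact le_rfl

theorem fCRB_nonneg (ht : 0 < p.t) (hs : 0 < s) (hr : 1 ≤ r) (n : ℕ) (F1 F3 : ℕ → Pt → ℝ)
    (g : ℤ → ℤ → ℝ) (Q1 Q2 Q3 : ℕ → Pt → Prop) :
    0 ≤ fCRB H989.CrB.mB ι p n ez F1 F2 F3 o K x s r U g u v Q1 Q2 Q3 x0 := by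
  unfold H989.CrB.fCRB
  refine sum_nonneg fun k _ => sum_nonneg fun x1 _ => sum_nonneg fun z _ => ?_
  split_ifs
  · exact H736.wE_nonneg (be_pos ht hr)
      (fun k x1 m => H652.Th_psd (tr_T (H401.Num.lam_pos (p := p) ht hs hr) K u x1) _ _ _ _ _) _ _ _ _
  · exact le_rfl

/-- the variation below the charge -/
theorem Dn_le (ht : 0 < p.t) (hs : 0 < s) (hr : 1 ≤ r) (c : ℤ → ℤ → ι → ℝ) (a : ℕ) :
    (beI p r)⁻¹ * Dn K (cx K x).2.2 (cx K x).1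
      (fun k x1 m => ah (p.lam s r) K (cx K x).2.1 (KT (p.lam s r) u x1) (o - 2) x0 x1 k m) c a ≤
      ∑ x1 ∈ iv K (cx K x).1, ∑ z ∈ iv K (cx K x).2.2,
        (chg p s r o K x u x0 a x1 z (c x1 z) + kinds p s r o K x u x0 a x1 z (c x1 z)) := by
  unfold H419.WFamR.Dn
  rw [mul_sum]
  refine sum_le_sum fun x1 _ => ?_
  rw [mul_sum]
  refine sum_le_sum fun z _ => ?_
  have h1 := H548.raw_le ht hs hr o K x u x0 a x1 z (c x1 z)
  have h2 := kinds_nonneg (o := o) (K := K) (x := x) (u := u) (x0 := x0) ht hs hr a x1 z (c x1 z)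
  have hb : 0 < (beI p r)⁻¹ := inv_pos.2 (be_pos ht hr)
  have h3 := mul_nonneg hb.le (H548.ze_nonneg ht hs hr o K x u x0 a x1 z (c x1 z))
  refine le_trans ?_ (le_add_of_nonneg_right h2)
  refine le_trans ?_ h1
  exact le_add_of_nonneg_right h3

/-- the drift below the charge -/
theorem En_le (ht : 0 < p.t) (hs : 0 < s) (hr : 1 ≤ r) (c : ℤ → ℤ → ι → ℝ) (a : ℕ) :
    (beI p r)⁻¹ * En K (cx K x).2.2 (cx K x).1
      (fun k x1 m => eb (p.lam s r) K (cx K x).2.1 (KT (p.lam s r) u x1) (o - 2) x0 x1 (k + 1) m)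
        c a ≤
      ∑ x1 ∈ iv K (cx K x).1, ∑ z ∈ iv K (cx K x).2.2,
        (chg p s r o K x u x0 a x1 z (c x1 z) + kinds p s r o K x u x0 a x1 z (c x1 z)) := by
  unfold H419.WFamR.En
  rw [mul_sum]
  refine sum_le_sum fun x1 _ => ?_
  rw [mul_sum]
  refine sum_le_sum fun z _ => ?_
  have h1 := H548.raw_le ht hs hr o K x u x0 a x1 z (c x1 z)
  have h2 := kinds_nonneg (o := o) (K := K) (x := x) (u := u) (x0 := x0) ht hs hr a x1 z (c x1 z)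
  have hb : 0 < (beI p r)⁻¹ := inv_pos.2 (be_pos ht hr)
  have h3 := mul_nonneg hb.le (H447.dot_self_nonneg (ah (p.lam s r) K (cx K x).2.1
    (KT (p.lam s r) u x1) (o - 2) x0 x1 a (ix (a + 1) z) *ᵥ c x1 z))
  refine le_trans ?_ (le_add_of_nonneg_right h2)
  refine le_trans ?_ h1
  exact le_add_of_nonneg_left h3

/-- the scalars of the last line -/
theorem last_le {J z th E EB : ℝ} (hJ : 0 ≤ J) (hE : 0 ≤ E) (hEB : 0 ≤ EB) :
    18 * (120000 * (J + 1) ^ 3) * (√(z ^ 2 * E * (th ^ 2 * EB)) + th ^ 2 * E) ≤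
      2160000 * (J + 1) ^ 3 * (√(z ^ 2 * E * ((2 * th) ^ 2 * EB)) + (2 * th) ^ 2 * E) := by
  have h1 : th ^ 2 ≤ (2 * th) ^ 2 := by nlinarith [sq_nonneg th]
  have h2 : √(z ^ 2 * E * (th ^ 2 * EB)) ≤ √(z ^ 2 * E * ((2 * th) ^ 2 * EB)) := by
    refine Real.sqrt_le_sqrt ?_
    gcongr
  have h3 : th ^ 2 * E ≤ (2 * th) ^ 2 * E := mul_le_mul_of_nonneg_right h1 hE
  have h4 : (18 : ℝ) * (120000 * (J + 1) ^ 3) = 2160000 * (J + 1) ^ 3 := by ring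
  rw [h4]
  exact mul_le_mul_of_nonneg_left (add_le_add h2 h3) (by positivity)

end pt

/-- **The inequality at one `x0`.** -/
theorem fix_pt : FixBC 2160000 2 nE nB := by
  intro ι _ _ p n ez F1 F2 F3 o K x s r U g u v Q1 Q2 Q3 _ _ he0 _ _ _ _ _ hd1 _ _ _ _ ht ht1 _ _ _
    ho hKn hs hr hcls _ q2 _ hez _ _ t _ x0 _ z J hz1 _ hJz
  have hth : 0 < p.th s r := H401.Num.th_pos ht hs hr
  have hbe : 0 < beI p r := be_pos ht hr
  have hbe1 : beI p r ≤ 1 := H548.beI_le_one ht ht1 he0.le hr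
  have hl : 0 < p.lam s r := H401.Num.lam_pos (p := p) ht hs hr
  have hz : 0 < z := lt_of_lt_of_le (mul_pos (Real.rpow_pos_of_pos (div_pos ht (by linarith)) _)
    (tauI_pos ht hs hr)) hz1
  have hz2 : 0 < z ^ 2 := by positivity
  have hT := wt_Th (fun x1 => tr_T hl K u x1) (cx K x).2.1 (o - 2) x0
  -- the numbers
  have v0 : ∀ q, 0 ≤ vN 0 q ι p n ez F1 F2 F3 o K x s r U g u v Q1 Q2 Q3 x0 := fun q =>
    vN_nonneg ht hs hr 0 q n F1 F3 g Q1 Q2 Q3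
  have v1 := vN_nonneg (ι := ι) (ez := ez) (o := o) (K := K) (x := x) (U := U) (u := u) (v := v)
    (F2 := F2) (x0 := x0) ht hs hr 1 0 n F1 F3 g Q1 Q2 Q3
  have o0 := oN_nonneg (ι := ι) (ez := ez) (o := o) (K := K) (x := x) (U := U) (u := u) (v := v)
    (F2 := F2) (x0 := x0) ht hs hr 0 n F1 F3 g Q1 Q2 Q3
  have b1 : ∀ q, 0 ≤ bN q ι p n ez F1 F2 F3 o K x s r U g u v Q1 Q2 Q3 x0 := fun q =>
    bN_nonneg ht hs hr q n F1 F3 g Q1 Q2 Q3
  have c0 := fCRB_nonneg (ι := ι) (ez := ez) (o := o) (K := K) (x := x) (U := U) (u := u) (v := v)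
    (F2 := F2) (x0 := x0) ht hs hr n F1 F3 g Q1 Q2 Q3
  have sv : 0 ≤ ∑ l ∈ range (K + 1), (3 / 4 : ℝ) ^ l *
      vN 0 l ι p n ez F1 F2 F3 o K x s r U g u v Q1 Q2 Q3 x0 :=
    sum_nonneg fun l _ => mul_nonneg (by positivity) (v0 l)
  have sb : 0 ≤ ∑ l ∈ range (K + 1), (3 / 4 : ℝ) ^ l *
      bN (l + 1) ι p n ez F1 F2 F3 o K x s r U g u v Q1 Q2 Q3 x0 :=
    sum_nonneg fun l _ => mul_nonneg (by positivity) (b1 (l + 1))
  obtain ⟨E, hE⟩ : ∃ E : ℝ, E = nE ι p n ez F1 F2 F3 o K x s r U g u v Q1 Q2 Q3 x0 := ⟨_, rfl⟩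
  obtain ⟨EB, hEB⟩ : ∃ EB : ℝ, EB = nB ι p n ez F1 F2 F3 o K x s r U g u v Q1 Q2 Q3 x0 :=
    ⟨_, rfl⟩
  have hEe : E = (∑ l ∈ range (K + 1), (3 / 4 : ℝ) ^ l *
      vN 0 l ι p n ez F1 F2 F3 o K x s r U g u v Q1 Q2 Q3 x0) +
      vN 1 0 ι p n ez F1 F2 F3 o K x s r U g u v Q1 Q2 Q3 x0 +
      oN 0 ι p n ez F1 F2 F3 o K x s r U g u v Q1 Q2 Q3 x0 +
      (∑ l ∈ range (K + 1), (3 / 4 : ℝ) ^ l *
        bN (l + 1) ι p n ez F1 F2 F3 o K x s r U g u v Q1 Q2 Q3 x0) +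
      bN 0 ι p n ez F1 F2 F3 o K x s r U g u v Q1 Q2 Q3 x0 +
      fCRB H989.CrB.mB ι p n ez F1 F2 F3 o K x s r U g u v Q1 Q2 Q3 x0 := hE
  have b00 := b1 0
  have hE0 : 0 ≤ E := by linarith
  have e1 : ∑ l ∈ range (K + 1), (3 / 4 : ℝ) ^ l *
      vN 0 l ι p n ez F1 F2 F3 o K x s r U g u v Q1 Q2 Q3 x0 ≤ E := by linarith
  have e2 : vN 1 0 ι p n ez F1 F2 F3 o K x s r U g u v Q1 Q2 Q3 x0 ≤ E := by linarith
  have e3 : oN 0 ι p n ez F1 F2 F3 o K x s r U g u v Q1 Q2 Q3 x0 ≤ E := by linarith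
  have e4 : ∑ l ∈ range (K + 1), (3 / 4 : ℝ) ^ l *
      bN (l + 1) ι p n ez F1 F2 F3 o K x s r U g u v Q1 Q2 Q3 x0 ≤ E := by linarith
  have e5 : bN 0 ι p n ez F1 F2 F3 o K x s r U g u v Q1 Q2 Q3 x0 ≤ E := by linarith
  have e6 : fCRB H989.CrB.mB ι p n ez F1 F2 F3 o K x s r U g u v Q1 Q2 Q3 x0 ≤ E := by linarith
  have hdB : 0 ≤ dB p s r U K x u F3 Q3 x0 := H652.dB_nonneg x x0
  have hpay : 0 ≤ payS (beI p r) (p.lam s r) o K (cx K x) u
      (fun k => H652.bS p s r U K u F3 Q3 x0 k) x0 := H652.payS_nonneg hbe hl _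
  have hEBe : EB = dB p s r U K x u F3 Q3 x0 + payS (beI p r) (p.lam s r) o K (cx K x) u
      (fun k => H652.bS p s r U K u F3 Q3 x0 k) x0 := hEB
  have hEB0 : 0 ≤ EB := by linarith
  have f1 : dB p s r U K x u F3 Q3 x0 ≤ EB := by linarith
  have f2 : payS (beI p r) (p.lam s r) o K (cx K x) u
      (fun k => H652.bS p s r U K u F3 Q3 x0 k) x0 ≤ EB := by linarith
  rw [← hE, ← hEB]
  -- the letters
  set T : ℕ → ℤ → ℤ → Matrix ι ι ℝ := tS p s r o K x u x0 with hTd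
  set c : ℕ → ℤ → ℤ → ι → ℝ := cS p ez U K v F2 x0 with hcd
  have hPc := pr_not (c := c) (N := K)
  have hJ : 2 * cCI p s r ^ 2 ≤ z ^ 2 * 4 ^ J := by
    have := sq_nonneg (cCI p s r)
    nlinarith
  have key := H736.fix_BC2 (be := beI p r) (T := T)
    (e := fun k x1 m => eb (p.lam s r) K (cx K x).2.1 (KT (p.lam s r) u x1) (o - 2) x0 x1 (k + 1) m)
    (d := fun k x1 m => ah (p.lam s r) K (cx K x).2.1 (KT (p.lam s r) u x1) (o - 2) x0 x1 k m)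
    hbe hbe1 hz2 (sq_nonneg (p.th s r)) (τ := 2) (by norm_num) le_rfl hT
    (fun k x1 m => H652.Th_le_two (tr_T hl K u x1) (o - 2) x0 x1 k m) (N := K)
    (b := H652.bS p s r U K u F3 Q3 x0)
    (c := H170.Win.cut K (cx K x).1 (cx K x).2.2 c)
    (Pb := PbS p s r U K u F3 Q3 x0) (Pc := Pr c)
    (H652.PbS_off x0) (H74.CutBC.cut_row hPc)
    (H652.bS_capk hth x0) (H652.bS_capk1 hth x0) (H652.bS_capN hth x0)
    (C := cCI p s r ^ 2)
    (fun k a n' m hk ha => H74.CapBC.cut_capX ht ht1 hd1 he0.le hs hr hez hKn hcls.toCls q2 x0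
      (by omega) (by omega) (by omega) n' m)
    (fun k a n' m hk ha => H74.CapBC.cut_capX ht ht1 hd1 he0.le hs hr hez hKn hcls.toCls q2 x0
      (by omega) (by omega) (by omega) n' m)
    (J := J) hJ (R₁ := (cx K x).2.1) (S₁ := (cx K x).1) (T₁ := (cx K x).2.2)
    (cc := cP o x0) (H677.cP_pl ho x0) (E := E) (EB := EB) hE0 hEB0
    ((H652.bS_hB1 x x0).trans f1) ((H652.bS_hB2 x x0).trans f1)
    ((H652.pay_hB3 hbe hl _).trans f2) ((H652.pay_hB4 hbe _).trans f2)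
    ?_ ?_ ?_ ?_ ?_ ?_ ?_ ?_ ?_
  · refine (H329.WinBC.pBC_cls ht hs hr ez U o K x u v F2 F3 Q3 (tauI_pos ht hs hr) hz x0).trans ?_
    rw [← H74.CutBC.GW_win_cut (S := (cx K x).1) (R := (cx K x).2.2)]
    refine le_trans ?_ (key.trans ?_)
    · exact le_rfl
    · exact last_le (Nat.cast_nonneg J) hE0 hEB0
  · -- hC0
    rw [H74.CutBC.c1_cut, H74.CutBC.nmH_cut]
    refine le_trans (le_of_eq ?_) e3
    have h1 : c1 K c 0 = cS p ez U K v F2 x0 1 := by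
      rw [hcd]
      funext a b
      show C1 p ez U K v F2 x0 (min (min (0 + 1) K) K) b a = C1 p ez U K v F2 x0 (min 1 K) b a
      rw [zero_add, min_assoc, min_self]
    unfold H419.WFamR.nmH H548.oN H419.WFamR.Wn
    rw [h1, Nat.zero_min]
    rfl
  · -- hC1
    rw [H74.CutBC.c1_cut, H74.CutBC.nmD_cut, nmD_c1, Nat.sub_zero, mul_sum]
    refine le_trans ?_ e2
    unfold H548.vN
    rw [Nat.sub_zero, range_eq_Ico]
    exact sum_le_sum fun k _ => Dn_le ht hs hr _ _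
  · -- hC2
    rw [H74.CutBC.c1_cut, H74.CutBC.nmE_cut, nmE_c1, Nat.sub_zero, mul_sum]
    refine le_trans ?_ e2
    unfold H548.vN
    rw [Nat.sub_zero, range_eq_Ico]
    exact sum_le_sum fun k _ => En_le ht hs hr _ _
  · -- hC3
    refine le_trans (le_of_eq ?_) e6
    unfold H989.CrB.fCRB
    refine sum_congr rfl fun k hk => sum_congr rfl fun x1 hx => sum_congr rfl fun z' hz' => ?_
    have hkK : k + 1 ≤ K := (mem_Ico.1 hk).2
    rw [H74.CutBC.wE_cut hkK hx hz']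
    rfl
  · -- hC4
    refine le_trans (le_of_eq ?_) ((H302.Wn_bN ht hs hr (pr_ch (c := c)) n F1 F3 g Q1 Q2 Q3).trans e5)
    refine sum_congr rfl fun k hk => ?_
    have hkK : k + 1 ≤ K := (mem_Ico.1 hk).2
    exact H74.CutBC.Wn_rs_cut hkK _ _ _
  · -- hW0
    rw [H74.CutBC.nmH_cut]
    refine le_trans (le_of_eq ?_) hE0
    unfold H912.wS
    refine sum_eq_zero fun q _ => ?_
    have h1 : nmH K (cx K x).2.2 (cx K x).1 (beI p r) T c q = 0 := by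
      unfold H419.WFamR.nmH H419.WFamR.Wn
      refine sum_eq_zero fun a _ => sum_eq_zero fun b _ => ?_
      rw [hcd, H548.cS_zero, zero_dotProduct]
    rw [h1, mul_zero]
  · -- hW1
    rw [H74.CutBC.nmD_cut]
    refine le_trans ?_ e1
    unfold H912.wS
    refine sum_le_sum fun q _ => mul_le_mul_of_nonneg_left ?_ (by positivity)
    unfold H419.WFamR.nmD H548.vN
    beta_reduce
    rw [mul_sum, range_eq_Ico]
    exact sum_le_sum fun k _ => Dn_le ht hs hr _ _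
  · -- hW2
    rw [H74.CutBC.nmE_cut]
    refine le_trans ?_ e1
    unfold H912.wS
    refine sum_le_sum fun q _ => mul_le_mul_of_nonneg_left ?_ (by positivity)
    unfold H419.WFamR.nmE H548.vN
    beta_reduce
    rw [mul_sum, range_eq_Ico]
    exact sum_le_sum fun k _ => En_le ht hs hr _ _
  · -- hW3
    rw [H74.CutBC.nmB_cut]
    refine le_trans ?_ e4
    unfold H912.wS
    exact sum_le_sum fun q _ => mul_le_mul_of_nonneg_left
      (H302.nmB_bN ht hs hr (pr_ch (c := c)) q n F1 F3 g Q1 Q2 Q3) (by positivity)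

theorem nn_E : NN nE := by
  intro ι _ _ p n ez F1 F2 F3 o K x s r U g u v Q1 Q2 Q3 x0 ht hs hr _
  unfold nE
  have v0 : ∀ q, 0 ≤ vN 0 q ι p n ez F1 F2 F3 o K x s r U g u v Q1 Q2 Q3 x0 := fun q =>
    vN_nonneg ht hs hr 0 q n F1 F3 g Q1 Q2 Q3
  have b1 : ∀ q, 0 ≤ bN q ι p n ez F1 F2 F3 o K x s r U g u v Q1 Q2 Q3 x0 := fun q =>
    bN_nonneg ht hs hr q n F1 F3 g Q1 Q2 Q3
  exact add_nonneg (add_nonneg (add_nonneg (add_nonneg (add_nonneg
    (sum_nonneg fun l _ => mul_nonneg (by positivity) (v0 l))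
    (vN_nonneg ht hs hr 1 0 n F1 F3 g Q1 Q2 Q3)) (oN_nonneg ht hs hr 0 n F1 F3 g Q1 Q2 Q3))
    (sum_nonneg fun l _ => mul_nonneg (by positivity) (b1 (l + 1)))) (b1 0))
    (fCRB_nonneg ht hs hr n F1 F3 g Q1 Q2 Q3)

theorem nn_B : NN nB := by
  intro ι _ _ p n ez F1 F2 F3 o K x s r U g u v Q1 Q2 Q3 x0 ht hs hr _
  exact add_nonneg (H652.dB_nonneg x x0)
    (H652.payS_nonneg (be_pos ht hr) (H401.Num.lam_pos (p := p) ht hs hr) _)

/-- **The numbers of the pair `(Bg, Cg)`.** -/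
theorem numBC : NumBC 2160000 2 := numBC_of sumE sumB nn_E nn_B fix_pt

/-- **The leaf.** -/
theorem lBCg : H408.LBCg := lbc_end (by norm_num) (by norm_num) numBC

end

end Vale.Agent.P141.H322
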